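import Claimed.Agent.R254.Decay.Ibp

/-!
THIS FILE = PACKAGE E254-DK1 (row 254, END254-C; architect helper65).  Mathlib only.
# DECAY, case 1: `|b'| ≥ 2 G |b₃|` (`b' = hor b`): the phase `b·γ(y)` has no critical point.

PLAN.  `dk_ibp` with `a = A`, `Ψ = ph φ b`, `u = b' = hor b`, `S = closedBall y₀ (2ρ)`.
`D z = fderiv (ph φ b) z b' = ‖b'‖² + b₃ ∇φ(z)·b'` (`ph_fderiv`, `real_inner_self_eq_norm_sq`), `|b₃ ∇φ(z) b'| ≤ |b₃| G ‖b'‖ ≤ ‖b'‖²/2`: `lam = ‖b'‖²/2`.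
`M0 = B₁`, `M1 = B₁ ‖b'‖` (`ContinuousLinearMap.le_opNorm`), `fderiv D z b' = b₃ D²φ(z)[b',b']`, `M2 = |b₃| G ‖b'‖² ≤ ‖b'‖³/2`
(take `M2 = ‖b'‖³/2`).  Result `M1/lam + M0 M2/lam² = 4 B₁/‖b'‖`.
-/

set_option autoImplicit false

namespace Claimed.Agent.R254

open MeasureTheory Metric Set
open scoped ContDiff ENNReal ComplexConjugate RealInnerProductSpace

/-- the second directional derivative of the phase -/
theorem dk_ph_fderiv2 {φ : E2 → ℝ} (hφ : ContDiff ℝ ∞ φ) (x : E3) (y u w : E2) :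
    fderiv ℝ (fun z' => fderiv ℝ (ph φ x) z' u) y w = x 2 * fderiv ℝ (fderiv ℝ φ) y w u := by
  have h1 : (fun z' => fderiv ℝ (ph φ x) z' u) = fun z' => ⟪hor x, u⟫ + x 2 * fderiv ℝ φ z' u := by
    funext z'
    exact ph_fderiv hφ x z' u
  rw [h1]
  have hd : DifferentiableAt ℝ (fderiv ℝ φ) y :=
    ((hφ.fderiv_right (m := 1) (by norm_cast)).differentiable (by norm_num)) y
  have h2 : HasFDerivAt (fun z' => fderiv ℝ φ z' u) ((fderiv ℝ (fderiv ℝ φ) y).flip u) y := by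
    have := hd.hasFDerivAt.clm_apply (hasFDerivAt_const u y)
    simpa using this
  have h3 := (h2.const_mul (x 2)).const_add ⟪hor x, u⟫
  rw [h3.fderiv]
  simp

theorem dk_case1 {φ : E2 → ℝ} {y₀ : E2} {ρ c G : ℝ} (h : ErLoc φ y₀ ρ c G) {A : E2 → ℂ} {B₁ : ℝ}
    (hA : Amp y₀ ρ A B₁) (b : E3) (hb : 2 * G * |b 2| ≤ ‖hor b‖) (hb0 : 0 < ‖hor b‖) :
    ‖∫ y, ee (ph φ b y) * A y‖ ≤
      (volume (closedBall y₀ (2 * ρ))).toReal * (4 * B₁ / ‖hor b‖) := by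
  set n := ‖hor b‖ with hn
  have hB : 0 ≤ B₁ := (norm_nonneg _).trans (hA.b0 y₀)
  have hG0 : 0 < G := lt_of_lt_of_le one_pos h.hG
  have key := dk_ibp A (ph φ b) (hor b) (closedBall y₀ (2 * ρ)) (isCompact_closedBall _ _) hA.smooth
    ((ph_contDiff h.smooth b).of_le (by norm_cast)) hA.supp (n ^ 2 / 2) B₁ (B₁ * n) (n ^ 3 / 2) (by positivity)
    ?_ (fun z _ => hA.b0 z) ?_ ?_
  · refine key.trans (le_of_eq ?_)
    congr 1
    field_simp
    ring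
  · intro z hz
    rw [ph_fderiv h.smooth, real_inner_self_eq_norm_sq, ← hn]
    have h1 : |fderiv ℝ φ z (hor b)| ≤ G * n := by
      have := (fderiv ℝ φ z).le_opNorm (hor b)
      rw [Real.norm_eq_abs] at this
      exact this.trans (mul_le_mul_of_nonneg_right (h.grad z hz) (norm_nonneg _))
    have h2 : |b 2 * fderiv ℝ φ z (hor b)| ≤ n ^ 2 / 2 := by
      rw [abs_mul]
      calc |b 2| * |fderiv ℝ φ z (hor b)| ≤ |b 2| * (G * n) := mul_le_mul_of_nonneg_left h1 (abs_nonneg _)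
        _ = (2 * G * |b 2|) * n / 2 := by ring
        _ ≤ n * n / 2 := by gcongr
        _ = n ^ 2 / 2 := by ring
    have h3 := abs_le.1 h2
    rw [le_abs]
    left
    linarith [h3.1]
  · intro z _
    exact ((fderiv ℝ A z).le_opNorm (hor b)).trans (mul_le_mul_of_nonneg_right (hA.b1 z) (norm_nonneg _))
  · intro z hz
    rw [dk_ph_fderiv2 h.smooth, abs_mul]
    have h1 : |fderiv ℝ (fderiv ℝ φ) z (hor b) (hor b)| ≤ G * n * n := by
      have h2 := (fderiv ℝ (fderiv ℝ φ) z (hor b)).le_opNorm (hor b)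
      have h3 := (fderiv ℝ (fderiv ℝ φ) z).le_opNorm (hor b)
      rw [Real.norm_eq_abs] at h2
      calc |fderiv ℝ (fderiv ℝ φ) z (hor b) (hor b)| ≤ ‖fderiv ℝ (fderiv ℝ φ) z (hor b)‖ * n := h2
        _ ≤ (‖fderiv ℝ (fderiv ℝ φ) z‖ * n) * n := by gcongr
        _ ≤ G * n * n := by
            have := h.hess z hz
            gcongr
    calc |b 2| * |fderiv ℝ (fderiv ℝ φ) z (hor b) (hor b)| ≤ |b 2| * (G * n * n) :=
          mul_le_mul_of_nonneg_left h1 (abs_nonneg _)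
      _ = (2 * G * |b 2|) * n ^ 2 / 2 := by ring
      _ ≤ n * n ^ 2 / 2 := by gcongr
      _ = n ^ 3 / 2 := by ring

end Claimed.Agent.R254
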