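import Claimed.Agent.R254.Decay.Ibp
import Claimed.Agent.R254.Decay.Case1

/-!
THIS FILE = PACKAGE E254-DKJ (row 254, END254-C; architect helper65).  Mathlib only.
# DECAY: the differenced integral `J(v)` has no critical point (monotonicity of `∇φ`).

PLAN.  `dk_ibp` with `a z = A (z+v) * conj (A z)`, `Ψ z = ph φ b (z+v) - ph φ b z`, `u = v`,
`S = closedBall y₀ (2ρ) ∩ {z | z + v ∈ closedBall y₀ (2ρ)}` (compact; `volume S ≤ volume (closedBall ..)`, `ENNReal.toReal_mono`).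
`D z = fderiv Ψ z v = b₃ (∇φ(z+v) v - ∇φ(z) v)` (the linear part of `ph` cancels: `ph_fderiv`, `fderiv_comp_add_right`), and `ErLoc.mono` with `y = z+v` gives
`|D z| ≥ |b₃| c ‖v‖² =: lam`.  `M0 = B₁²`, `M1 = 2 B₁² ‖v‖` (product rule; `conj ∘ A` has the same norm of derivative), `fderiv D z v = b₃ (D²φ(z+v)[v,v] - D²φ(z)[v,v])`, `M2 = 2 G |b₃| ‖v‖²`.
`M1/lam + M0 M2/lam² = B₁² (2/(c|b₃|‖v‖) + 2G/(c²|b₃|‖v‖²))`.
-/

set_option autoImplicit false

namespace Claimed.Agent.R254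

open MeasureTheory Metric Set
open scoped ContDiff ENNReal ComplexConjugate RealInnerProductSpace

/-- derivative of the conjugate -/
theorem dk_fderiv_conj {A : E2 → ℂ} (hA : Differentiable ℝ A) (z u : E2) :
    fderiv ℝ (fun z' => conj (A z')) z u = conj (fderiv ℝ A z u) := by
  have h1 : HasFDerivAt (fun z' => conj (A z')) ((Complex.conjCLE : ℂ →L[ℝ] ℂ).comp (fderiv ℝ A z)) z :=
    (Complex.conjCLE : ℂ →L[ℝ] ℂ).hasFDerivAt.comp z (hA z).hasFDerivAt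
  rw [h1.fderiv]
  rfl

theorem dk_J_amp {y₀ : E2} {ρ : ℝ} {A : E2 → ℂ} {B₁ : ℝ} (hA : Amp y₀ ρ A B₁) (v z : E2) :
    ‖fderiv ℝ (fun z' => A (z' + v) * conj (A z')) z v‖ ≤ 2 * B₁ ^ 2 * ‖v‖ := by
  have hd : Differentiable ℝ A := hA.smooth.differentiable (by norm_num)
  have hB : 0 ≤ B₁ := (norm_nonneg _).trans (hA.b0 y₀)
  have h1 : DifferentiableAt ℝ (fun z' => A (z' + v)) z := (hd (z + v)).comp z (by fun_prop)
  have h2 : DifferentiableAt ℝ (fun z' => conj (A z')) z :=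
    ((Complex.conjCLE : ℂ →L[ℝ] ℂ).differentiableAt).comp z (hd z)
  have h3 : fderiv ℝ (fun z' => A (z' + v) * conj (A z')) z
      = A (z + v) • fderiv ℝ (fun z' => conj (A z')) z + conj (A z) • fderiv ℝ (fun z' => A (z' + v)) z :=
    fderiv_fun_mul h1 h2
  rw [h3]
  simp only [add_apply, smul_apply, smul_eq_mul]
  rw [dk_fderiv_conj hd, fderiv_comp_add_right]
  have e1 : ‖fderiv ℝ A z v‖ ≤ B₁ * ‖v‖ :=
    ((fderiv ℝ A z).le_opNorm v).trans (mul_le_mul_of_nonneg_right (hA.b1 z) (norm_nonneg _))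
  have e2 : ‖fderiv ℝ A (z + v) v‖ ≤ B₁ * ‖v‖ :=
    ((fderiv ℝ A (z + v)).le_opNorm v).trans (mul_le_mul_of_nonneg_right (hA.b1 _) (norm_nonneg _))
  calc ‖A (z + v) * conj (fderiv ℝ A z v) + conj (A z) * fderiv ℝ A (z + v) v‖
      ≤ ‖A (z + v)‖ * ‖fderiv ℝ A z v‖ + ‖A z‖ * ‖fderiv ℝ A (z + v) v‖ := by
        refine (norm_add_le _ _).trans ?_
        rw [norm_mul, norm_mul, RCLike.norm_conj, RCLike.norm_conj]
    _ ≤ B₁ * (B₁ * ‖v‖) + B₁ * (B₁ * ‖v‖) := by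
        have := hA.b0 (z + v)
        have := hA.b0 z
        gcongr
    _ = 2 * B₁ ^ 2 * ‖v‖ := by ring

theorem dk_J_phase1 {φ : E2 → ℝ} (hφ : ContDiff ℝ ∞ φ) (b : E3) (v z : E2) :
    fderiv ℝ (fun z' => ph φ b (z' + v) - ph φ b z') z v
      = b 2 * (fderiv ℝ φ (z + v) v - fderiv ℝ φ z v) := by
  have hd : Differentiable ℝ (ph φ b) := (ph_contDiff hφ b).differentiable (by norm_num)
  have h1 : DifferentiableAt ℝ (fun z' => ph φ b (z' + v)) z :=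
    (hd (z + v)).comp z (differentiableAt_id.add_const v)
  rw [fderiv_fun_sub h1 (hd z), sub_apply, fderiv_comp_add_right, ph_fderiv hφ, ph_fderiv hφ]
  ring

theorem dk_J_phase2 {φ : E2 → ℝ} (hφ : ContDiff ℝ ∞ φ) (b : E3) (v z : E2) :
    fderiv ℝ (fun z'' => fderiv ℝ (fun z' => ph φ b (z' + v) - ph φ b z') z'' v) z v
      = b 2 * (fderiv ℝ (fderiv ℝ φ) (z + v) v v - fderiv ℝ (fderiv ℝ φ) z v v) := by
  have hd : Differentiable ℝ (ph φ b) := (ph_contDiff hφ b).differentiable (by norm_num)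
  have h0 : (fun z'' => fderiv ℝ (fun z' => ph φ b (z' + v) - ph φ b z') z'' v)
      = fun z'' => fderiv ℝ (ph φ b) (z'' + v) v - fderiv ℝ (ph φ b) z'' v := by
    funext z''
    have h1 : DifferentiableAt ℝ (fun z' => ph φ b (z' + v)) z'' :=
      (hd (z'' + v)).comp z'' (differentiableAt_id.add_const v)
    rw [fderiv_fun_sub h1 (hd z''), sub_apply, fderiv_comp_add_right]
  rw [h0]
  have hg : Differentiable ℝ (fun z' => fderiv ℝ (ph φ b) z' v) := by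
    have h2 : Differentiable ℝ (fderiv ℝ (ph φ b)) :=
      ((ph_contDiff hφ b).fderiv_right (m := 1) (by norm_cast)).differentiable (by norm_num)
    exact fun y => (h2 y).clm_apply (differentiableAt_const v)
  have h3 : DifferentiableAt ℝ (fun z'' => fderiv ℝ (ph φ b) (z'' + v) v) z :=
    (hg (z + v)).comp z (differentiableAt_id.add_const v)
  rw [fderiv_fun_sub h3 (hg z), sub_apply,
    fderiv_comp_add_right (f := fun z' => fderiv ℝ (ph φ b) z' v), dk_ph_fderiv2 hφ, dk_ph_fderiv2 hφ]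
  ring

theorem dk_J {φ : E2 → ℝ} {y₀ : E2} {ρ c G : ℝ} (h : ErLoc φ y₀ ρ c G) {A : E2 → ℂ} {B₁ : ℝ}
    (hA : Amp y₀ ρ A B₁) (b : E3) (hb : b 2 ≠ 0) (v : E2) (hv : v ≠ 0) :
    ‖∫ z, ee (ph φ b (z + v) - ph φ b z) * (A (z + v) * conj (A z))‖ ≤
      (volume (closedBall y₀ (2 * ρ))).toReal *
        (B₁ ^ 2 * (2 / (c * |b 2| * ‖v‖) + 2 * G / (c ^ 2 * |b 2| * ‖v‖ ^ 2))) := by
  have hB : 0 ≤ B₁ := (norm_nonneg _).trans (hA.b0 y₀)
  have hG0 : 0 < G := lt_of_lt_of_le one_pos h.hG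
  have hc := h.hc
  have hb' : 0 < |b 2| := abs_pos.2 hb
  have hv' : 0 < ‖v‖ := norm_pos_iff.2 hv
  obtain ⟨S, hSdef⟩ : ∃ S : Set E2, S = closedBall y₀ (2 * ρ) ∩ (fun z => z + v) ⁻¹' closedBall y₀ (2 * ρ) := ⟨_, rfl⟩
  have hScomp : IsCompact S := by
    rw [hSdef]
    exact (isCompact_closedBall _ _).inter_right (isClosed_closedBall.preimage (by fun_prop))
  have hmem : ∀ z ∈ S, z ∈ closedBall y₀ (2 * ρ) ∧ z + v ∈ closedBall y₀ (2 * ρ) := by
    intro z hz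
    rw [hSdef] at hz
    exact hz
  have hcd : ContDiff ℝ 1 (fun z => A (z + v) * conj (A z)) := by
    have h1 : ContDiff ℝ 1 (fun z => A (z + v)) := hA.smooth.comp (by fun_prop)
    have h2 : ContDiff ℝ 1 (fun z => conj (A z)) := (Complex.conjCLE : ℂ →L[ℝ] ℂ).contDiff.comp hA.smooth
    exact h1.mul h2
  have hΨ : ContDiff ℝ 2 (fun z => ph φ b (z + v) - ph φ b z) := by
    have h0 : ContDiff ℝ 2 (ph φ b) := (ph_contDiff h.smooth b).of_le (by norm_cast)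
    exact (h0.comp (by fun_prop)).sub h0
  have key := dk_ibp (fun z => A (z + v) * conj (A z)) (fun z => ph φ b (z + v) - ph φ b z) v S hScomp hcd hΨ ?_
    (|b 2| * c * ‖v‖ ^ 2) (B₁ ^ 2) (2 * B₁ ^ 2 * ‖v‖) (2 * G * |b 2| * ‖v‖ ^ 2) (by positivity) ?_ ?_
    (fun z _ => dk_J_amp hA v z) ?_
  · refine key.trans ?_
    have hvol : (volume S).toReal ≤ (volume (closedBall y₀ (2 * ρ))).toReal := by
      refine ENNReal.toReal_mono measure_closedBall_lt_top.ne (measure_mono ?_)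
      rw [hSdef]
      exact inter_subset_left
    have heq : 2 * B₁ ^ 2 * ‖v‖ / (|b 2| * c * ‖v‖ ^ 2) + B₁ ^ 2 * (2 * G * |b 2| * ‖v‖ ^ 2) / (|b 2| * c * ‖v‖ ^ 2) ^ 2
        = B₁ ^ 2 * (2 / (c * |b 2| * ‖v‖) + 2 * G / (c ^ 2 * |b 2| * ‖v‖ ^ 2)) := by
      field_simp
    rw [heq]
    exact mul_le_mul_of_nonneg_right hvol (by positivity)
  · intro z hz
    rw [hSdef] at hz
    by_cases h1 : z ∈ closedBall y₀ (2 * ρ)
    · have h2 : z + v ∉ closedBall y₀ (2 * ρ) := fun h2 => hz ⟨h1, h2⟩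
      rw [hA.supp _ h2, zero_mul]
    · rw [hA.supp _ h1, map_zero, mul_zero]
  · intro z hz
    obtain ⟨h1, h2⟩ := hmem z hz
    rw [dk_J_phase1 h.smooth, abs_mul, mul_assoc]
    refine mul_le_mul_of_nonneg_left ?_ (abs_nonneg _)
    have h3 := h.mono (z + v) h2 z h1
    rw [add_sub_cancel_left] at h3
    exact h3.trans (le_abs_self _)
  · intro z _
    rw [norm_mul, RCLike.norm_conj, sq]
    exact mul_le_mul (hA.b0 _) (hA.b0 _) (norm_nonneg _) hB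
  · intro z hz
    obtain ⟨h1, h2⟩ := hmem z hz
    rw [dk_J_phase2 h.smooth, abs_mul]
    have e : ∀ y ∈ closedBall y₀ (2 * ρ), |fderiv ℝ (fderiv ℝ φ) y v v| ≤ G * ‖v‖ ^ 2 := by
      intro y hy
      have h2 := (fderiv ℝ (fderiv ℝ φ) y v).le_opNorm v
      have h3 := (fderiv ℝ (fderiv ℝ φ) y).le_opNorm v
      rw [Real.norm_eq_abs] at h2
      calc |fderiv ℝ (fderiv ℝ φ) y v v| ≤ ‖fderiv ℝ (fderiv ℝ φ) y v‖ * ‖v‖ := h2
        _ ≤ (‖fderiv ℝ (fderiv ℝ φ) y‖ * ‖v‖) * ‖v‖ := by gcongr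
        _ ≤ G * ‖v‖ * ‖v‖ := by
            have := h.hess y hy
            gcongr
        _ = G * ‖v‖ ^ 2 := by ring
    have e3 := abs_sub (fderiv ℝ (fderiv ℝ φ) (z + v) v v) (fderiv ℝ (fderiv ℝ φ) z v v)
    calc |b 2| * |fderiv ℝ (fderiv ℝ φ) (z + v) v v - fderiv ℝ (fderiv ℝ φ) z v v|
        ≤ |b 2| * (G * ‖v‖ ^ 2 + G * ‖v‖ ^ 2) := by
          refine mul_le_mul_of_nonneg_left ?_ (abs_nonneg _)
          exact e3.trans (add_le_add (e _ h2) (e _ h1))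
      _ = 2 * G * |b 2| * ‖v‖ ^ 2 := by ring

end Claimed.Agent.R254
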