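import Claimed.Agent.R254.Decay.Diff
import Claimed.Agent.R254.Decay.J

/-!
THIS FILE = PACKAGE E254-DK2 (row 254, END254-C; architect helper65).  Mathlib only.
# DECAY, case 2: `|b₃| ≥ 1`:  `|∫ e(b·γ) A| ≤ C B₁ |b₃|^{-1/4}`.

PLAN.  `V := vol(closedBall y₀ (2ρ))`, `v₂ := vol(ball (0:E2) 1)` (as reals; `Measure.addHaar_ball`/`addHaar_closedBall`: `vol(ball 0 s) = s² v₂`).
`J(v)` as in `dk_diff`.  (i) `‖J v‖ ≤ V B₁²` for all `v` (`dk_J_triv`);  (ii) `J v = 0` if `‖v‖ > 4ρ` (`dk_J_far`: `z` and `z+v` cannot both lie in the ball);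
(iii) `dk_J` for `v ≠ 0`.  With `δ := |b₃|^{-1/4} ≤ 1`:
`∫ ‖J‖ ≤ ∫_{‖v‖ ≤ δ} V B₁² + ∫_{δ < ‖v‖ ≤ 4ρ} V B₁² (2/(c|b₃|δ) + 2G/(c²|b₃|δ²)) ≤ V B₁² v₂ [δ² + 16ρ² (2/c + 2G/c²) |b₃|^{-1/2}]`
since `1/(|b₃| δ) = |b₃|^{-3/4} ≤ |b₃|^{-1/2}` and `1/(|b₃|δ²) = |b₃|^{-1/2} = δ²`.
(Bound `‖J v‖` pointwise by the sum of two indicator functions of balls times constants and integrate: `integral_mono_of_nonneg`, `integral_indicator_const`; no measurability of `J` is needed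
if you use `integral_mono_of_nonneg` with the integrable majorant; if `v ↦ ‖J v‖` is not integrable its integral is `0` and `dk_diff` gives `I = 0`.)
`dk_diff`: `‖I‖² ≤ C² B₁² |b₃|^{-1/2}`; take square roots (`Real.sqrt_le_sqrt`, `abs_le_of_sq_le_sq`, `Real.rpow_natCast`, `← Real.rpow_mul`).
-/

set_option autoImplicit false

namespace Claimed.Agent.R254

open MeasureTheory Metric Set
open scoped ContDiff ENNReal ComplexConjugate RealInnerProductSpace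

theorem dk_ind_integrable (x : E2) (r k : ℝ) : Integrable ((closedBall x r).indicator fun _ : E2 => k) :=
  (integrable_indicator_iff measurableSet_closedBall).2 (integrableOn_const measure_closedBall_lt_top.ne)

theorem dk_ind_integral (x : E2) (r k : ℝ) :
    ∫ z, (closedBall x r).indicator (fun _ : E2 => k) z = (volume (closedBall x r)).toReal * k := by
  rw [integral_indicator_const _ measurableSet_closedBall]
  rfl

theorem dk_J_triv {φ : E2 → ℝ} {y₀ : E2} {ρ : ℝ} {A : E2 → ℂ} {B₁ : ℝ}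
    (hA : Amp y₀ ρ A B₁) (b : E3) (v : E2) :
    ‖∫ z, ee (ph φ b (z + v) - ph φ b z) * (A (z + v) * conj (A z))‖ ≤
      (volume (closedBall y₀ (2 * ρ))).toReal * B₁ ^ 2 := by
  have hB : 0 ≤ B₁ := (norm_nonneg _).trans (hA.b0 y₀)
  rw [← dk_ind_integral]
  refine norm_integral_le_of_norm_le (dk_ind_integrable _ _ _) (Filter.Eventually.of_forall fun z => ?_)
  rw [norm_mul, ee_norm, one_mul, norm_mul, RCLike.norm_conj]
  by_cases hz : z ∈ closedBall y₀ (2 * ρ)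
  · rw [indicator_of_mem hz, sq]
    exact mul_le_mul (hA.b0 _) (hA.b0 _) (norm_nonneg _) hB
  · rw [indicator_of_notMem hz, hA.supp z hz, norm_zero, mul_zero]

theorem dk_J_far {φ : E2 → ℝ} {y₀ : E2} {ρ : ℝ} {A : E2 → ℂ} {B₁ : ℝ}
    (hA : Amp y₀ ρ A B₁) (b : E3) (v : E2) (hv : 4 * ρ < ‖v‖) :
    ∫ z, ee (ph φ b (z + v) - ph φ b z) * (A (z + v) * conj (A z)) = 0 := by
  have h0 : ∀ z, ee (ph φ b (z + v) - ph φ b z) * (A (z + v) * conj (A z)) = 0 := by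
    intro z
    by_cases hz : z ∈ closedBall y₀ (2 * ρ)
    · have hz' : z + v ∉ closedBall y₀ (2 * ρ) := by
        intro h2
        rw [mem_closedBall, dist_eq_norm] at hz h2
        have h3 : ‖v‖ ≤ ‖z + v - y₀‖ + ‖z - y₀‖ := by
          have : v = (z + v - y₀) - (z - y₀) := by abel
          calc ‖v‖ = ‖(z + v - y₀) - (z - y₀)‖ := by rw [← this]
            _ ≤ _ := norm_sub_le _ _
        linarith
      rw [hA.supp _ hz', zero_mul, mul_zero]
    · rw [hA.supp _ hz, map_zero, mul_zero, mul_zero]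
  simp only [h0, integral_zero]

theorem dk_delta {t : ℝ} (ht : 1 ≤ t) :
    0 < t ^ (-(1 / 4 : ℝ)) ∧ t ^ (-(1 / 4 : ℝ)) ≤ 1 ∧ t * (t ^ (-(1 / 4 : ℝ))) ^ 4 = 1 := by
  have ht0 : 0 < t := lt_of_lt_of_le one_pos ht
  refine ⟨Real.rpow_pos_of_pos ht0 _, Real.rpow_le_one_of_one_le_of_nonpos ht (by norm_num), ?_⟩
  rw [← Real.rpow_natCast, ← Real.rpow_mul ht0.le]
  norm_num
  rw [Real.rpow_neg_one]
  exact mul_inv_cancel₀ ht0.ne'

theorem dk_case2 {φ : E2 → ℝ} {y₀ : E2} {ρ c G : ℝ} (h : ErLoc φ y₀ ρ c G) :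
    ∃ C : ℝ, 0 ≤ C ∧ ∀ (A : E2 → ℂ) (B₁ : ℝ), Amp y₀ ρ A B₁ → ∀ b : E3, 1 ≤ |b 2| →
      ‖∫ y, ee (ph φ b y) * A y‖ ≤ C * B₁ * |b 2| ^ (-(1 / 4 : ℝ)) := by
  obtain ⟨V, hV⟩ : ∃ V : ℝ, V = (volume (closedBall y₀ (2 * ρ))).toReal := ⟨_, rfl⟩
  have hV0 : 0 ≤ V := by rw [hV]; exact ENNReal.toReal_nonneg
  have hc := h.hc
  have hρ := h.hρ
  have hG0 : 0 < G := lt_of_lt_of_le one_pos h.hG
  obtain ⟨Q, hQ⟩ : ∃ Q : ℝ, Q = V * Real.pi * (1 + 16 * ρ ^ 2 * (2 / c + 2 * G / c ^ 2)) := ⟨_, rfl⟩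
  have hQ0 : 0 ≤ Q := by rw [hQ]; positivity
  refine ⟨Real.sqrt Q, Real.sqrt_nonneg _, fun A B₁ hA b hb => ?_⟩
  have hB : 0 ≤ B₁ := (norm_nonneg _).trans (hA.b0 y₀)
  obtain ⟨t, ht⟩ : ∃ t : ℝ, t = |b 2| := ⟨_, rfl⟩
  rw [← ht] at hb ⊢
  have ht0 : 0 < t := lt_of_lt_of_le one_pos hb
  have hb2 : b 2 ≠ 0 := by
    intro h0
    rw [h0, abs_zero] at ht
    linarith
  obtain ⟨hd0, hd1, hd4⟩ := dk_delta hb
  obtain ⟨δ, hδ⟩ : ∃ δ : ℝ, δ = t ^ (-(1 / 4 : ℝ)) := ⟨_, rfl⟩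
  rw [← hδ] at hd0 hd1 hd4 ⊢
  -- the constant on the annulus
  obtain ⟨K, hK⟩ : ∃ K : ℝ, K = 2 / (c * t * δ) + 2 * G / (c ^ 2 * t * δ ^ 2) := ⟨_, rfl⟩
  have hK0 : 0 ≤ K := by rw [hK]; positivity
  have hKle : K ≤ (2 / c + 2 * G / c ^ 2) * δ ^ 2 := by
    have e1 : 2 / (c * t * δ) = 2 / c * δ ^ 3 := by
      have : t = 1 / δ ^ 4 := by field_simp; linarith
      rw [this]
      field_simp
    have e2 : 2 * G / (c ^ 2 * t * δ ^ 2) = 2 * G / c ^ 2 * δ ^ 2 := by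
      have : t = 1 / δ ^ 4 := by field_simp; linarith
      rw [this]
      field_simp
    rw [hK, e1, e2, add_mul]
    have e3 : δ ^ 3 ≤ δ ^ 2 := by
      have : δ ^ 3 = δ ^ 2 * δ := by ring
      rw [this]
      exact mul_le_of_le_one_right (by positivity) hd1
    have : 0 ≤ 2 / c := by positivity
    nlinarith
  -- the majorant
  have hmaj : ∀ v : E2, ‖∫ z, ee (ph φ b (z + v) - ph φ b z) * (A (z + v) * conj (A z))‖ ≤
      (closedBall (0 : E2) δ).indicator (fun _ => V * B₁ ^ 2) v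
        + (closedBall (0 : E2) (4 * ρ)).indicator (fun _ => V * (B₁ ^ 2 * K)) v := by
    intro v
    have hn1 : 0 ≤ (closedBall (0 : E2) δ).indicator (fun _ => V * B₁ ^ 2) v :=
      indicator_nonneg (fun _ _ => by positivity) v
    have hn2 : 0 ≤ (closedBall (0 : E2) (4 * ρ)).indicator (fun _ => V * (B₁ ^ 2 * K)) v :=
      indicator_nonneg (fun _ _ => by positivity) v
    by_cases h1 : ‖v‖ ≤ δ
    · rw [indicator_of_mem (by rwa [mem_closedBall_zero_iff])]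
      have := dk_J_triv (φ := φ) hA b v
      rw [← hV] at this
      linarith
    · push Not at h1
      by_cases h2 : ‖v‖ ≤ 4 * ρ
      · rw [indicator_of_mem (s := closedBall (0 : E2) (4 * ρ)) (by rwa [mem_closedBall_zero_iff])]
        have hv0 : v ≠ 0 := by
          intro h0
          rw [h0, norm_zero] at h1
          linarith
        have h3 := dk_J h hA b hb2 v hv0
        rw [← hV, ← ht] at h3
        have h4 : 2 / (c * t * ‖v‖) + 2 * G / (c ^ 2 * t * ‖v‖ ^ 2) ≤ K := by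
          rw [hK]
          gcongr
        have h5 : V * (B₁ ^ 2 * (2 / (c * t * ‖v‖) + 2 * G / (c ^ 2 * t * ‖v‖ ^ 2))) ≤ V * (B₁ ^ 2 * K) := by
          gcongr
        linarith
      · push Not at h2
        rw [dk_J_far hA b v h2, norm_zero]
        linarith
  have hI := dk_diff h.smooth.continuous hA b
  have hint : ∫ v : E2, ‖∫ z, ee (ph φ b (z + v) - ph φ b z) * (A (z + v) * conj (A z))‖ ≤
      Real.pi * δ ^ 2 * (V * B₁ ^ 2) + Real.pi * (4 * ρ) ^ 2 * (V * (B₁ ^ 2 * K)) := by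
    refine (integral_mono_of_nonneg (Filter.Eventually.of_forall fun v => norm_nonneg _)
      ((dk_ind_integrable _ _ _).add (dk_ind_integrable _ _ _)) (Filter.Eventually.of_forall hmaj)).trans
      (le_of_eq ?_)
    have := integral_add (dk_ind_integrable (0 : E2) δ (V * B₁ ^ 2))
      (dk_ind_integrable (0 : E2) (4 * ρ) (V * (B₁ ^ 2 * K)))
    simp only [Pi.add_apply]
    rw [this, dk_ind_integral, dk_ind_integral, EuclideanSpace.volume_closedBall_fin_two,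
      EuclideanSpace.volume_closedBall_fin_two, ← ENNReal.ofReal_pow hd0.le, ← ENNReal.ofReal_pow (by positivity),
      ← ENNReal.ofReal_mul (by positivity), ← ENNReal.ofReal_mul (by positivity),
      ENNReal.toReal_ofReal (by positivity), ENNReal.toReal_ofReal (by positivity)]
    ring
  have hfin : ‖∫ y, ee (ph φ b y) * A y‖ ^ 2 ≤ (Real.sqrt Q * B₁ * δ) ^ 2 := by
    rw [mul_pow, mul_pow, Real.sq_sqrt hQ0]
    refine hI.trans (hint.trans ?_)
    have h6 : Real.pi * (4 * ρ) ^ 2 * (V * (B₁ ^ 2 * K))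
        ≤ Real.pi * (4 * ρ) ^ 2 * (V * (B₁ ^ 2 * ((2 / c + 2 * G / c ^ 2) * δ ^ 2))) := by
      gcongr
    refine (add_le_add_right h6 _).trans (le_of_eq ?_)
    rw [hQ]
    ring
  exact (pow_le_pow_iff_left₀ (norm_nonneg _) (by positivity) two_ne_zero).1 hfin

end Claimed.Agent.R254
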