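import Claimed.Agent.R254.Basic

/-!
THIS FILE = PACKAGE E254-DKDIFF (row 254, END254-C; architect helper65).  Mathlib only.
# DECAY, differencing:  `|∫ e(Φ) A|² ≤ ∫_v |J(v)| dv`,  `J(v) = ∫_z e(Φ(z+v) - Φ(z)) A(z+v) conj A(z) dz`,  `Φ = ph φ b`.

PLAN.  `I := ∫ e(Φ y) A y`.  `‖I‖² = ‖I * conj I‖`, `conj I = ∫ conj(..)` (`integral_conj`), `I * conj I = ∫_z ∫_y F y * conj (F z)` with `F = e(Φ) A`
(`integral_mul_const`, `integral_const_mul`), inner substitution `y = z + v` (`integral_add_left_eq_self`), swap (`integral_integral_swap`; the integrand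
`(z,v) ↦ F (z+v) conj (F z)` is continuous with compact support, or: it is the composition of the integrable `F ⊗ conj F` (`Integrable.mul_prod`) with the measure preserving shear
`(z,v) ↦ (z, z+v)`: `MeasureTheory.measurePreserving_add_prod`/`Integrable.comp_measurePreserving`...), `ee_sub`; finally `norm_integral_le_integral_norm`.
`F` is continuous with compact support (`A` continuous, `= 0` off a closed ball).
-/

set_option autoImplicit false

namespace Claimed.Agent.R254

open MeasureTheory Metric Set
open scoped ContDiff ENNReal ComplexConjugate RealInnerProductSpace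

theorem dk_diff {φ : E2 → ℝ} (hφ : Continuous φ) {y₀ : E2} {ρ : ℝ} {A : E2 → ℂ} {B₁ : ℝ}
    (hA : Amp y₀ ρ A B₁) (b : E3) :
    ‖∫ y, ee (ph φ b y) * A y‖ ^ 2 ≤
      ∫ v : E2, ‖∫ z, ee (ph φ b (z + v) - ph φ b z) * (A (z + v) * conj (A z))‖ := by
  set F : E2 → ℂ := fun y => ee (ph φ b y) * A y with hF
  have hphc : Continuous (fun y => ph φ b y) :=
    (ph_continuous hφ).comp (continuous_const.prodMk continuous_id)
  have hFc : Continuous F := (ee_continuous.comp hphc).mul hA.smooth.continuous
  have hF0 : ∀ y, y ∉ closedBall y₀ (2 * ρ) → F y = 0 := fun y hy => by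
    simp [hF, hA.supp y hy]
  set H : E2 × E2 → ℂ := fun p => F (p.1 + p.2) * conj (F p.1) with hH
  have hHc : Continuous H :=
    (hFc.comp (continuous_fst.add continuous_snd)).mul
      (Complex.continuous_conj.comp (hFc.comp continuous_fst))
  have hHs : HasCompactSupport H := by
    refine HasCompactSupport.intro
      ((isCompact_closedBall y₀ (2 * ρ)).prod (isCompact_closedBall (0 : E2) (2 * (2 * ρ)))) ?_
    rintro ⟨z, v⟩ hp
    by_cases hz : z ∈ closedBall y₀ (2 * ρ)
    · have hv : v ∉ closedBall (0 : E2) (2 * (2 * ρ)) := fun hv => hp ⟨hz, hv⟩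
      have hzv : z + v ∉ closedBall y₀ (2 * ρ) := by
        intro hzv
        apply hv
        rw [mem_closedBall, dist_zero_right]
        rw [mem_closedBall] at hz hzv
        have h1 : ‖v‖ = dist (z + v) z := by simp [dist_eq_norm]
        have h2 : dist (z + v) z ≤ dist (z + v) y₀ + dist z y₀ := dist_triangle_right _ _ _
        linarith
      simp [hH, hF0 _ hzv]
    · simp [hH, hF0 _ hz]
  have hHi : Integrable H (volume.prod volume) := hHc.integrable_of_hasCompactSupport hHs
  have key : (∫ y, F y) * conj (∫ y, F y) = ∫ v, ∫ z, F (z + v) * conj (F z) := by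
    calc (∫ y, F y) * conj (∫ y, F y) = (∫ y, F y) * ∫ z, conj (F z) := by rw [integral_conj]
      _ = ∫ z, (∫ y, F y) * conj (F z) := (integral_const_mul _ _).symm
      _ = ∫ z, ∫ v, F (z + v) * conj (F z) := by
          congr 1
          ext z
          rw [← integral_add_left_eq_self (fun y => F y) z, integral_mul_const]
      _ = ∫ v, ∫ z, F (z + v) * conj (F z) := integral_integral_swap hHi
  calc ‖∫ y, ee (ph φ b y) * A y‖ ^ 2 = ‖(∫ y, F y) * conj (∫ y, F y)‖ := by
        rw [norm_mul, RCLike.norm_conj, sq]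
    _ = ‖∫ v, ∫ z, F (z + v) * conj (F z)‖ := by rw [key]
    _ ≤ ∫ v, ‖∫ z, F (z + v) * conj (F z)‖ := norm_integral_le_integral_norm _
    _ = ∫ v : E2, ‖∫ z, ee (ph φ b (z + v) - ph φ b z) * (A (z + v) * conj (A z))‖ := by
        congr 1
        ext v
        congr 2
        ext z
        simp only [hF, ee_sub, map_mul]
        ring

end Claimed.Agent.R254
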