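import Claimed.Agent.R254.Basic

/-!
THIS FILE = PACKAGE E254-IBP (row 254, END254-C; architect helper65).  Mathlib only.
# Non-stationary phase: ONE integration by parts in a fixed direction `u`.

`a ∈ C¹`, `a = 0` off the compact set `S`; `Ψ ∈ C²` real; `D(z) := ∂_u Ψ(z) = fderiv ℝ Ψ z u`, `|D| ≥ lam > 0` on `S`.  Then
`|∫ e(Ψ) a| ≤ |S| (M1/lam + M0 M2/lam²)`   (we drop the factor `1/2π`).

PLAN.  `q z := a z / (2π i D z)`.  `q` is differentiable EVERYWHERE: at `z ∈ S` since `D z ≠ 0` (`D` is `C¹`: `hΨ.fderiv_right`, `clm_apply`);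
at `z ∉ S` since `Sᶜ` is open and `q = 0` on it (`a = 0`), so `q =ᶠ[𝓝 z] 0` and `fderiv q z = 0`.
`E z := ee (Ψ z)`, `fderiv E z u = 2π i D z * E z` (`ee_hasDerivAt`, chain rule), so `E z * a z = fderiv E z u * q z` for ALL `z` (`z ∉ S`: both sides `0`).
`integral_mul_fderiv_eq_neg_fderiv_mul_of_integrable` (Mathlib.Analysis.Calculus.LineDeriv.IntegrationByParts) gives `∫ fderiv E z u * q z = - ∫ E z * fderiv q z u`.
Integrability: all three products are continuous?  NOT needed: they are bounded measurable and vanish off `S` -- simplest: `q` and `fderiv q · u` are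
continuous on... ALTERNATIVE that avoids continuity of `fderiv q`: on `S`, `fderiv q z u = (fderiv a z u) / (2π i D z) - a z * (fderiv D z u) / (2π i (D z)²)`, which is the
restriction of a function continuous on the open set `{D ≠ 0} ⊇ S`; use `ContinuousOn.integrableOn_compact hS` + `integrableOn_iff_integrable_of_support_subset`.
Bound: `‖fderiv q z u‖ ≤ (M1/lam + M0 M2/lam²)/(2π)` on `S`, `= 0` off `S`; `norm_integral_le_of_norm_le_const`-type bound on `S` (`norm_setIntegral_le_of_norm_le_const`).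
-/

set_option autoImplicit false

namespace Claimed.Agent.R254

open MeasureTheory Metric Set
open scoped ContDiff ENNReal ComplexConjugate RealInnerProductSpace

/-- a function continuous on a compact set and vanishing off it is integrable -/
theorem dk_integrable_of_continuousOn {F : E2 → ℂ} {S : Set E2} (hS : IsCompact S)
    (hF : ContinuousOn F S) (h0 : ∀ z, z ∉ S → F z = 0) : Integrable F := by
  have h1 : IntegrableOn F S := hF.integrableOn_compact hS
  refine (integrableOn_iff_integrable_of_support_subset ?_).1 h1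
  intro z hz
  by_contra hzS
  exact hz (h0 z hzS)

theorem dk_ibp (a : E2 → ℂ) (Ψ : E2 → ℝ) (u : E2) (S : Set E2) (hS : IsCompact S)
    (ha : ContDiff ℝ 1 a) (hΨ : ContDiff ℝ 2 Ψ) (hsupp : ∀ z, z ∉ S → a z = 0)
    (lam M0 M1 M2 : ℝ) (hlam : 0 < lam) (hD : ∀ z ∈ S, lam ≤ |fderiv ℝ Ψ z u|)
    (h0 : ∀ z ∈ S, ‖a z‖ ≤ M0) (h1 : ∀ z ∈ S, ‖fderiv ℝ a z u‖ ≤ M1)
    (h2 : ∀ z ∈ S, |fderiv ℝ (fun z' => fderiv ℝ Ψ z' u) z u| ≤ M2) :
    ‖∫ z, ee (Ψ z) * a z‖ ≤ (volume S).toReal * (M1 / lam + M0 * M2 / lam ^ 2) := by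
  classical
  set c : ℂ := 2 * Real.pi * Complex.I with hc
  have hc0 : c ≠ 0 := by simp [hc, Real.pi_ne_zero]
  have hcn : ‖c‖ = 2 * Real.pi := by simp [hc, abs_of_pos Real.pi_pos]
  set D : E2 → ℝ := fun z => fderiv ℝ Ψ z u with hDdef
  have hDC1 : ContDiff ℝ 1 D := by
    have h : ContDiff ℝ 1 (fderiv ℝ Ψ) := hΨ.fderiv_right (by norm_num)
    exact h.clm_apply contDiff_const
  have hDdiff : Differentiable ℝ D := hDC1.differentiable (by norm_num)
  have hDcont : Continuous D := hDC1.continuous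
  have hD'cont : Continuous (fun z => fderiv ℝ D z u) :=
    (hDC1.continuous_fderiv (by norm_num)).clm_apply continuous_const
  have hadiff : Differentiable ℝ a := ha.differentiable (by norm_num)
  have hacont : Continuous a := ha.continuous
  have ha'cont : Continuous (fun z => fderiv ℝ a z u) :=
    (ha.continuous_fderiv (by norm_num)).clm_apply continuous_const
  have hΨdiff : Differentiable ℝ Ψ := hΨ.differentiable (by norm_num)
  have hSc : IsClosed S := hS.isClosed
  have hDne : ∀ z ∈ S, D z ≠ 0 := by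
    intro z hz h
    have := hD z hz
    rw [show fderiv ℝ Ψ z u = D z from rfl, h, abs_zero] at this
    linarith
  set q : E2 → ℂ := fun z => (D z)⁻¹ • (c⁻¹ * a z) with hq
  set E : E2 → ℂ := fun z => ee (Ψ z) with hE
  have hEcont : Continuous E := ee_continuous.comp hΨ.continuous
  have hq_on : ∀ z ∈ S, HasFDerivAt q ((D z)⁻¹ • (c⁻¹ • fderiv ℝ a z) +
      ((-(D z ^ 2)⁻¹) • fderiv ℝ D z : E2 →L[ℝ] ℝ).smulRight (c⁻¹ * a z)) z := by
    intro z hz
    have hw : HasFDerivAt (fun z : E2 => (D z)⁻¹) ((-(D z ^ 2)⁻¹) • fderiv ℝ D z) z :=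
      (hasDerivAt_inv (hDne z hz)).comp_hasFDerivAt z (hDdiff z).hasFDerivAt
    have hb : HasFDerivAt (fun z : E2 => c⁻¹ * a z) (c⁻¹ • fderiv ℝ a z) z :=
      (hadiff z).hasFDerivAt.const_mul c⁻¹
    exact hw.smul hb
  have hq_off : ∀ z, z ∉ S → HasFDerivAt q (0 : E2 →L[ℝ] ℂ) z := by
    intro z hz
    have h : q =ᶠ[nhds z] fun _ => 0 := by
      filter_upwards [hSc.isOpen_compl.mem_nhds hz] with y hy
      simp [hq, hsupp y hy]
    exact (hasFDerivAt_const (0 : ℂ) z).congr_of_eventuallyEq h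
  have hqdiff : Differentiable ℝ q := by
    intro z
    by_cases hz : z ∈ S
    · exact (hq_on z hz).differentiableAt
    · exact (hq_off z hz).differentiableAt
  have hE' : ∀ z, HasFDerivAt E
      (ContinuousLinearMap.toSpanSingleton ℝ (c * ee (Ψ z)) ∘SL fderiv ℝ Ψ z) z := fun z =>
    (ee_hasDerivAt (Ψ z)).hasFDerivAt.comp z (hΨdiff z).hasFDerivAt
  have hE'u : ∀ z, fderiv ℝ E z u = (D z) • (c * E z) := by
    intro z
    rw [(hE' z).fderiv]
    simp [hDdef, hE]
  have hEdiff : Differentiable ℝ E := fun z => (hE' z).differentiableAt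
  have hEn : ∀ z, ‖E z‖ = 1 := fun z => ee_norm _
  -- the pointwise identity
  have hid : ∀ z, q z * fderiv ℝ E z u = E z * a z := by
    intro z
    by_cases hz : z ∈ S
    · rw [hE'u]
      have hDz := hDne z hz
      simp only [hq, Complex.real_smul]
      have hDz' : ((D z : ℝ) : ℂ) ≠ 0 := by exact_mod_cast hDz
      push_cast
      field_simp
    · simp [hq, hsupp z hz]
  -- the derivative of `q` in the direction `u`
  set G : E2 → ℂ := fun z => (D z)⁻¹ • (c⁻¹ * fderiv ℝ a z u) +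
    (-(D z ^ 2)⁻¹ * fderiv ℝ D z u) • (c⁻¹ * a z) with hG
  have hq'on : ∀ z ∈ S, fderiv ℝ q z u = G z := by
    intro z hz
    rw [(hq_on z hz).fderiv]
    simp [hG]
  have hq'off : ∀ z, z ∉ S → fderiv ℝ q z u = 0 := by
    intro z hz
    rw [(hq_off z hz).fderiv]
    simp
  have hinvcont : ContinuousOn (fun z => (D z)⁻¹) S :=
    hDcont.continuousOn.inv₀ hDne
  have hGcont : ContinuousOn G S := by
    refine ContinuousOn.add ?_ ?_
    · exact hinvcont.smul (continuous_const.mul ha'cont).continuousOn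
    · have h3 : ContinuousOn (fun z => -(D z ^ 2)⁻¹ * fderiv ℝ D z u) S := by
        refine ContinuousOn.mul ?_ hD'cont.continuousOn
        refine ContinuousOn.neg ?_
        exact (hDcont.pow 2).continuousOn.inv₀ (fun z hz => pow_ne_zero 2 (hDne z hz))
      exact h3.smul (continuous_const.mul hacont).continuousOn
  have hqcont : ContinuousOn q S := hinvcont.smul (continuous_const.mul hacont).continuousOn
  have hq0 : ∀ z, z ∉ S → q z = 0 := fun z hz => by simp [hq, hsupp z hz]
  have hI1 : Integrable (fun z => fderiv ℝ q z u * E z) := by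
    refine dk_integrable_of_continuousOn hS ?_ (fun z hz => by rw [hq'off z hz, zero_mul])
    exact (hGcont.mul hEcont.continuousOn).congr (fun z hz => by rw [hq'on z hz]; rfl)
  have hI2 : Integrable (fun z => q z * fderiv ℝ E z u) := by
    simp only [hid]
    exact dk_integrable_of_continuousOn hS (hEcont.mul hacont).continuousOn
      (fun z hz => by rw [hsupp z hz, mul_zero])
  have hI3 : Integrable (fun z => q z * E z) :=
    dk_integrable_of_continuousOn hS (hqcont.mul hEcont.continuousOn)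
      (fun z hz => by rw [hq0 z hz, zero_mul])
  have hibp := integral_mul_fderiv_eq_neg_fderiv_mul_of_integrable (μ := volume) (v := u)
    hI1 hI2 hI3 (fun z _ => hqdiff z) (fun z _ => hEdiff z)
  simp only [hid] at hibp
  have hcinv : ‖c⁻¹‖ ≤ 1 := by
    rw [norm_inv, hcn]
    refine inv_le_one_of_one_le₀ ?_
    have := Real.pi_gt_three
    linarith
  have hbound : ∀ z ∈ S, ‖fderiv ℝ q z u * E z‖ ≤ M1 / lam + M0 * M2 / lam ^ 2 := by
    intro z hz
    rw [norm_mul, hEn, mul_one, hq'on z hz]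
    have hDz : lam ≤ |D z| := hD z hz
    have hDpos : 0 < |D z| := lt_of_lt_of_le hlam hDz
    have hi1 : |D z|⁻¹ ≤ lam⁻¹ := inv_anti₀ hlam hDz
    have hi2 : (|D z| ^ 2)⁻¹ ≤ (lam ^ 2)⁻¹ :=
      inv_anti₀ (by positivity) (pow_le_pow_left₀ hlam.le hDz 2)
    have t1 : ‖(D z)⁻¹ • (c⁻¹ * fderiv ℝ a z u)‖ ≤ M1 / lam := by
      rw [norm_smul, norm_mul, norm_inv, Real.norm_eq_abs]
      calc |D z|⁻¹ * (‖c⁻¹‖ * ‖fderiv ℝ a z u‖) ≤ lam⁻¹ * (1 * M1) := by
            refine mul_le_mul hi1 ?_ (by positivity) (by positivity)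
            exact mul_le_mul hcinv (h1 z hz) (norm_nonneg _) zero_le_one
        _ = M1 / lam := by rw [one_mul, div_eq_mul_inv, mul_comm]
    have t2 : ‖(-(D z ^ 2)⁻¹ * fderiv ℝ D z u) • (c⁻¹ * a z)‖ ≤ M0 * M2 / lam ^ 2 := by
      rw [norm_smul, norm_mul, norm_mul, norm_neg, norm_inv, norm_pow, Real.norm_eq_abs,
        Real.norm_eq_abs]
      calc (|D z| ^ 2)⁻¹ * |fderiv ℝ D z u| * (‖c⁻¹‖ * ‖a z‖)
          ≤ (lam ^ 2)⁻¹ * M2 * (1 * M0) := by
            refine mul_le_mul ?_ ?_ (by positivity) ?_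
            · exact mul_le_mul hi2 (h2 z hz) (abs_nonneg _) (by positivity)
            · exact mul_le_mul hcinv (h0 z hz) (norm_nonneg _) zero_le_one
            · exact mul_nonneg (by positivity) ((abs_nonneg _).trans (h2 z hz))
        _ = M0 * M2 / lam ^ 2 := by rw [one_mul, div_eq_mul_inv]; ring
    exact (norm_add_le _ _).trans (add_le_add t1 t2)
  have hset : ∫ z, fderiv ℝ q z u * E z = ∫ z in S, fderiv ℝ q z u * E z :=
    (setIntegral_eq_integral_of_forall_compl_eq_zero
      (fun z hz => by rw [hq'off z hz, zero_mul])).symm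
  have hfin : volume S < ⊤ := hS.measure_lt_top
  calc ‖∫ z, ee (Ψ z) * a z‖ = ‖∫ z in S, fderiv ℝ q z u * E z‖ := by
        rw [← hset, show (∫ z, ee (Ψ z) * a z) = ∫ z, E z * a z from rfl, hibp, norm_neg]
    _ ≤ (M1 / lam + M0 * M2 / lam ^ 2) * volume.real S :=
        norm_setIntegral_le_of_norm_le_const hfin hbound
    _ = (volume S).toReal * (M1 / lam + M0 * M2 / lam ^ 2) := by
        rw [mul_comm]; rfl

end Claimed.Agent.R254
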