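import Claimed.Agent.R254.Decay.Case1
import Claimed.Agent.R254.Decay.Case2

/-!
THIS FILE = PACKAGE E254-DKMAIN (row 254, END254-C; architect helper65).  Mathlib only.
# DECAY (exit of END254-C):  `|∫ e(b·γ(y)) A(y) dy| ≤ C B₁ (1+|b|)^{-1/4}` for `C¹` amplitudes `A` supported in `closedBall y₀ (2ρ)`.

PLAN.  `V := vol(closedBall y₀ (2ρ))`, `C₂` from `dk_case2`.  Trivial bound `‖I‖ ≤ V B₁` (`norm_integral_le_of_norm_le`, `ee_norm`, support).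
* `‖b‖ < 2G+1`: `1 ≤ (2G+2)^{1/4} (1+‖b‖)^{-1/4}`.
* `‖b‖ ≥ 2G+1`, `2G|b₃| ≤ ‖hor b‖`: `‖b‖ ≤ ‖hor b‖ + |b₃| ≤ 2‖hor b‖` (`norm_le_hor`, `G ≥ 1`), `dk_case1`: `‖I‖ ≤ 8 V B₁/‖b‖ ≤ 16 V B₁ (1+‖b‖)^{-1} ≤ 16 V B₁ (1+‖b‖)^{-1/4}`.
* `‖b‖ ≥ 2G+1`, `‖hor b‖ < 2G|b₃|`: `‖b‖ ≤ (2G+1)|b₃|`, so `|b₃| ≥ 1` and `|b₃|^{-1/4} ≤ (2G+1)^{1/4} ‖b‖^{-1/4} ≤ (2(2G+1))^{1/4} (1+‖b‖)^{-1/4}`.
`C := V (2G+2)^{1/4} + 16 V + C₂ (2(2G+1))^{1/4}`.   (`B₁ ≥ 0` from `hA.b0`.)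
-/

set_option autoImplicit false

namespace Claimed.Agent.R254

open MeasureTheory Metric Set
open scoped ContDiff ENNReal ComplexConjugate RealInnerProductSpace

theorem dk_rpow_quarter {x y k : ℝ} (hy : 0 < y) (hk : 0 < k) (hxy : y / k ≤ x) :
    x ^ (-(1 / 4 : ℝ)) ≤ k ^ (1 / 4 : ℝ) * y ^ (-(1 / 4 : ℝ)) := by
  have h1 : 0 < y / k := by positivity
  have h2 : x ^ (-(1 / 4 : ℝ)) ≤ (y / k) ^ (-(1 / 4 : ℝ)) := Real.rpow_le_rpow_of_nonpos h1 hxy (by norm_num)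
  refine h2.trans (le_of_eq ?_)
  rw [Real.div_rpow hy.le hk.le, Real.rpow_neg hk.le, div_inv_eq_mul, mul_comm]

theorem dk_triv {φ : E2 → ℝ} {y₀ : E2} {ρ : ℝ} {A : E2 → ℂ} {B₁ : ℝ} (hA : Amp y₀ ρ A B₁) (b : E3) :
    ‖∫ y, ee (ph φ b y) * A y‖ ≤ (volume (closedBall y₀ (2 * ρ))).toReal * B₁ := by
  rw [← dk_ind_integral]
  refine norm_integral_le_of_norm_le (dk_ind_integrable _ _ _) (Filter.Eventually.of_forall fun z => ?_)
  rw [norm_mul, ee_norm, one_mul]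
  by_cases hz : z ∈ closedBall y₀ (2 * ρ)
  · rw [indicator_of_mem hz]
    exact hA.b0 _
  · rw [indicator_of_notMem hz, hA.supp z hz, norm_zero]

theorem dk_decay {φ : E2 → ℝ} {y₀ : E2} {ρ c G : ℝ} (h : ErLoc φ y₀ ρ c G) :
    ∃ C : ℝ, 0 ≤ C ∧ ∀ (A : E2 → ℂ) (B₁ : ℝ), Amp y₀ ρ A B₁ → ∀ b : E3,
      ‖∫ y, ee (ph φ b y) * A y‖ ≤ C * B₁ * (1 + ‖b‖) ^ (-(1 / 4 : ℝ)) := by
  obtain ⟨V, hV⟩ : ∃ V : ℝ, V = (volume (closedBall y₀ (2 * ρ))).toReal := ⟨_, rfl⟩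
  have hV0 : 0 ≤ V := by rw [hV]; exact ENNReal.toReal_nonneg
  have hG := h.hG
  have hG0 : 0 < G := lt_of_lt_of_le one_pos hG
  obtain ⟨C₂, hC₂, hcase2⟩ := dk_case2 h
  obtain ⟨k1, hk1⟩ : ∃ k1 : ℝ, k1 = (2 * G + 2) ^ (1 / 4 : ℝ) := ⟨_, rfl⟩
  obtain ⟨k2, hk2⟩ : ∃ k2 : ℝ, k2 = (2 * (2 * G + 1)) ^ (1 / 4 : ℝ) := ⟨_, rfl⟩
  have hk10 : 0 ≤ k1 := by rw [hk1]; positivity
  have hk20 : 0 ≤ k2 := by rw [hk2]; positivity
  refine ⟨V * k1 + 16 * V + C₂ * k2, by positivity, fun A B₁ hA b => ?_⟩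
  have hB : 0 ≤ B₁ := (norm_nonneg _).trans (hA.b0 y₀)
  have hn : 0 ≤ ‖b‖ := norm_nonneg b
  obtain ⟨w, hw⟩ : ∃ w : ℝ, w = (1 + ‖b‖) ^ (-(1 / 4 : ℝ)) := ⟨_, rfl⟩
  have hw0 : 0 ≤ w := by rw [hw]; positivity
  rw [← hw]
  have t1 : 0 ≤ V * k1 * B₁ * w := by positivity
  have t2 : 0 ≤ 16 * V * B₁ * w := by positivity
  have t3 : 0 ≤ C₂ * k2 * B₁ * w := by positivity
  have hexp : (V * k1 + 16 * V + C₂ * k2) * B₁ * w = V * k1 * B₁ * w + 16 * V * B₁ * w + C₂ * k2 * B₁ * w := by ring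
  rw [hexp]
  by_cases hsmall : ‖b‖ < 2 * G + 1
  · have h1 := dk_triv (φ := φ) hA b
    rw [← hV] at h1
    have h2 : (1 : ℝ) ≤ k1 * w := by
      have := dk_rpow_quarter (x := 1) (y := 1 + ‖b‖) (k := 2 * G + 2) (by positivity) (by positivity)
        (by rw [div_le_one (by positivity)]; linarith)
      rwa [Real.one_rpow, ← hk1, ← hw] at this
    have h3 : V * B₁ ≤ V * k1 * B₁ * w := by
      have : V * B₁ * 1 ≤ V * B₁ * (k1 * w) := mul_le_mul_of_nonneg_left h2 (by positivity)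
      calc V * B₁ = V * B₁ * 1 := by ring
        _ ≤ V * B₁ * (k1 * w) := this
        _ = V * k1 * B₁ * w := by ring
    linarith
  · push Not at hsmall
    have hb1 : 1 ≤ ‖b‖ := by linarith
    have hnb := norm_le_hor b
    by_cases hcase : 2 * G * |b 2| ≤ ‖hor b‖
    · have h1 : ‖b‖ ≤ 2 * ‖hor b‖ := by
        have : |b 2| ≤ ‖hor b‖ := by
          have h5 : |b 2| ≤ 2 * G * |b 2| := by
            have := abs_nonneg (b 2)
            nlinarith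
          linarith
        linarith
      have hh0 : 0 < ‖hor b‖ := by linarith
      have h2 := dk_case1 h hA b hcase hh0
      rw [← hV] at h2
      have h3 : 4 * B₁ / ‖hor b‖ ≤ 16 * B₁ * w := by
        have e1 : 4 * B₁ / ‖hor b‖ ≤ 16 * B₁ * (1 + ‖b‖)⁻¹ := by
          rw [div_le_iff₀ hh0]
          have e2 : 1 ≤ 4 * ((1 + ‖b‖)⁻¹ * ‖hor b‖) := by
            rw [← mul_assoc, mul_comm 4, mul_assoc, inv_mul_eq_div, le_div_iff₀ (by positivity)]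
            linarith
          calc 4 * B₁ = 4 * B₁ * 1 := by ring
            _ ≤ 4 * B₁ * (4 * ((1 + ‖b‖)⁻¹ * ‖hor b‖)) := mul_le_mul_of_nonneg_left e2 (by positivity)
            _ = 16 * B₁ * (1 + ‖b‖)⁻¹ * ‖hor b‖ := by ring
        have e3 : (1 + ‖b‖)⁻¹ ≤ w := by
          rw [hw, ← Real.rpow_neg_one]
          exact Real.rpow_le_rpow_of_exponent_le (by linarith) (by norm_num)
        exact e1.trans (mul_le_mul_of_nonneg_left e3 (by positivity))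
      have h4 : V * (4 * B₁ / ‖hor b‖) ≤ 16 * V * B₁ * w := by
        calc V * (4 * B₁ / ‖hor b‖) ≤ V * (16 * B₁ * w) := mul_le_mul_of_nonneg_left h3 hV0
          _ = 16 * V * B₁ * w := by ring
      linarith
    · push Not at hcase
      have h1 : ‖b‖ ≤ (2 * G + 1) * |b 2| := by linarith
      have hb2 : 1 ≤ |b 2| := by
        by_contra hlt
        push Not at hlt
        have : (2 * G + 1) * |b 2| < (2 * G + 1) * 1 := mul_lt_mul_of_pos_left hlt (by positivity)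
        linarith
      have h2 := hcase2 A B₁ hA b hb2
      have h3 : |b 2| ^ (-(1 / 4 : ℝ)) ≤ k2 * w := by
        rw [hk2, hw]
        refine dk_rpow_quarter (by positivity) (by positivity) ?_
        rw [div_le_iff₀ (by positivity)]
        nlinarith
      have h4 : C₂ * B₁ * |b 2| ^ (-(1 / 4 : ℝ)) ≤ C₂ * k2 * B₁ * w := by
        calc C₂ * B₁ * |b 2| ^ (-(1 / 4 : ℝ)) ≤ C₂ * B₁ * (k2 * w) := mul_le_mul_of_nonneg_left h3 (by positivity)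
          _ = C₂ * k2 * B₁ * w := by ring
      linarith

end Claimed.Agent.R254
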